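import Vale.Agent.P139Z.Prob.Aux1

/-! The random datum lies almost surely in `H^k` for `k < α - d/2`. -/

open Set Filter Topology MeasureTheory ProbabilityTheory
open scoped NNReal ENNReal

namespace Vale.Agent.P139Z.Hk

open Vale.Agent.P139 Vale.Agent.P139.A

theorem std_moment_sq : ∫⁻ z, ENNReal.ofReal (‖z‖ ^ 2) ∂stdComplexGaussian < ∞ := by
  unfold stdComplexGaussian
  rw [lintegral_map (by fun_prop) measurable_mkC]
  have h1 : Integrable (fun x : ℝ => x ^ 2) (gaussianReal 0 (1 / 2)) :=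
    (memLp_id_gaussianReal 2).integrable_sq
  have h2 : Integrable (fun z : ℝ × ℝ => z.1 ^ 2)
      ((gaussianReal 0 (1 / 2)).prod (gaussianReal 0 (1 / 2))) := h1.comp_fst _
  have h3 : Integrable (fun z : ℝ × ℝ => z.2 ^ 2)
      ((gaussianReal 0 (1 / 2)).prod (gaussianReal 0 (1 / 2))) := h1.comp_snd _
  have h4 := (h2.add h3).lintegral_lt_top
  refine lt_of_eq_of_lt (lintegral_congr fun z => ?_) h4
  congr 1
  rw [Complex.sq_norm, Complex.normSq_apply]
  simp only [Pi.add_apply]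
  ring

theorem ae_summable_sq {d : ℕ} {Ω : Type*} [MeasurableSpace Ω] {P : Measure Ω}
    {g : (Fin d → ℤ) → Ω → ℂ} (hm : ∀ n, Measurable (g n))
    (hg : ∀ n, P.map (g n) = stdComplexGaussian) {q : (Fin d → ℤ) → ℝ}
    (hq0 : ∀ n, 0 ≤ q n) (hq : Summable q) :
    ∀ᵐ ω ∂P, Summable fun n => q n * ‖g n ω‖ ^ 2 := by
  have hmeas : ∀ n, Measurable fun ω => ENNReal.ofReal (‖g n ω‖ ^ 2) * ENNReal.ofReal (q n) :=
    fun n => by
      have := hm n
      fun_prop
  have h1 : ∫⁻ ω, ∑' n, ENNReal.ofReal (‖g n ω‖ ^ 2) * ENNReal.ofReal (q n) ∂P ≠ ∞ := by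
    rw [lintegral_tsum fun n => (hmeas n).aemeasurable]
    have h2 : ∀ n, ∫⁻ ω, ENNReal.ofReal (‖g n ω‖ ^ 2) * ENNReal.ofReal (q n) ∂P =
        (∫⁻ z, ENNReal.ofReal (‖z‖ ^ 2) ∂stdComplexGaussian) * ENNReal.ofReal (q n) := by
      intro n
      rw [lintegral_mul_const _ (by have := hm n; fun_prop), ← hg n,
        lintegral_map (by fun_prop) (hm n)]
    simp_rw [h2]
    rw [ENNReal.tsum_mul_left]
    exact ENNReal.mul_ne_top std_moment_sq.ne hq.tsum_ofReal_ne_top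
  have h3 := ae_lt_top (Measurable.tsum hmeas) h1
  filter_upwards [h3] with ω hω
  have h4 : ∑' n, ENNReal.ofReal (q n * ‖g n ω‖ ^ 2) ≠ ∞ := by
    refine ne_of_eq_of_ne (tsum_congr fun n => ?_) hω.ne
    rw [ENNReal.ofReal_mul (hq0 n), mul_comm]
  exact (ENNReal.summable_toReal h4).congr fun n => by
    rw [ENNReal.toReal_ofReal (mul_nonneg (hq0 n) (sq_nonneg _))]

theorem ae_mem {d k : ℕ} {Ω : Type} [MeasurableSpace Ω] (P : Measure Ω)
    [IsProbabilityMeasure P] (g : (Fin d → ℤ) → Ω → ℂ) (hm : ∀ n, Measurable (g n))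
    (hg : ∀ n, P.map (g n) = stdComplexGaussian) {α : ℝ} (hα : (k : ℝ) < α - (d : ℝ) / 2) :
    ∀ᵐ ω ∂P, MemSobolev k (datum g α ω) := by
  have hs := Prob.summable_rpow_weight (d := d) (β := 2 * (α - k)) (by linarith)
  filter_upwards [ae_summable_sq hm hg (fun n => by positivity) hs] with ω hω
  refine hω.congr fun n => ?_
  have h0 := sqNorm_nonneg n
  have h1 : 0 < Real.sqrt (1 + sqNorm n) := Real.sqrt_pos.2 (by linarith)
  rw [Prob.norm_datum, mul_pow, ← mul_assoc]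
  congr 1
  have h2 : (1 + sqNorm n) ^ k = Real.sqrt (1 + sqNorm n) ^ ((2 * k : ℕ) : ℝ) := by
    rw [Real.rpow_natCast, pow_mul, Real.sq_sqrt (by linarith)]
  rw [h2, ← Real.rpow_natCast, ← Real.rpow_mul h1.le, ← Real.rpow_add h1, ← Real.rpow_neg h1.le]
  congr 1
  push_cast
  ring

end Vale.Agent.P139Z.Hk
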