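import Vale.Agent.P139Z.Hk.Space

/-! Local existence in the Sobolev space and gluing of solutions. -/

open Set Filter Topology Complex Metric
open scoped NNReal ENNReal ComplexConjugate

namespace Vale.Agent.P139Z.Hk

open Vale.Agent.P139 Vale.Agent.P139.A Vale.Agent.P139.A.WA

variable {d k : ℕ}

/-- The phase of the free flow. -/
noncomputable def ph (t : ℝ) (n : Lat d) : ℂ := cexp (-(I * sqNorm n * t))

theorem norm_ph (t : ℝ) (n : Lat d) : ‖ph t n‖ = 1 := norm_phase t n

theorem ph_mul_neg (t : ℝ) (n : Lat d) : ph t n * ph (-t) n = 1 := by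
  unfold ph
  rw [← Complex.exp_add]
  simp

theorem hasDerivAt_ph (n : Lat d) (t : ℝ) :
    HasDerivAt (fun s => ph s n) (ph t n * -(I * sqNorm n)) t := by
  have h2 : HasDerivAt (fun s : ℝ => -(I * sqNorm n * (s : ℂ))) (-(I * sqNorm n)) t := by
    have h3 := (((hasDerivAt_id t).ofReal_comp).const_mul (I * sqNorm n)).neg
    refine h3.congr_deriv ?_
    simp
  exact h2.cexp

/-- The free flow. -/
noncomputable def U (t : ℝ) (x : HS d) : HS d :=
  ⟨fun n => ph t n * x n, memℓp_gen (by
    have h := (lp.memℓp x).summable (p := 2) (by norm_num)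
    simpa only [norm_mul, norm_ph, one_mul] using h)⟩

theorem U_apply (t : ℝ) (x : HS d) (n : Lat d) : U t x n = ph t n * x n := rfl

theorem cf_U (t : ℝ) (x : HS d) (n : Lat d) : cf k (U t x) n = ph t n * cf k x n := by
  rw [cf, cf, U_apply, mul_div_assoc]

theorem U_sub (t : ℝ) (x y : HS d) : U t (x - y) = U t x - U t y := by
  ext n
  simp [U_apply, mul_sub]

theorem hasSum_sq (x : HS d) : HasSum (fun n => ‖x n‖ ^ 2) (‖x‖ ^ 2) := by
  simpa using lp.hasSum_norm (p := 2) (by norm_num) x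

theorem norm_U (t : ℝ) (x : HS d) : ‖U t x‖ = ‖x‖ := by
  have h1 := hasSum_sq (U t x)
  simp only [U_apply, norm_mul, norm_ph, one_mul] at h1
  exact (sq_eq_sq₀ (norm_nonneg _) (norm_nonneg _)).1 (h1.unique (hasSum_sq x))

theorem continuous_U (x : HS d) : Continuous fun t => U t x := by
  rw [continuous_iff_continuousAt]
  intro t
  rw [ContinuousAt, tendsto_iff_norm_sub_tendsto_zero]
  have h1 : Tendsto (fun s => ∑' n, ‖(U s x - U t x) n‖ ^ 2) (𝓝 t) (𝓝 (∑' _ : Lat d, (0 : ℝ))) := by
    refine tendsto_tsum_of_dominated_convergence (bound := fun n => 4 * ‖x n‖ ^ 2)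
      ((hasSum_sq x).summable.mul_left 4) (fun n => ?_) (Eventually.of_forall fun s n => ?_)
    · have hc : Continuous fun s => ph s n :=
        continuous_iff_continuousAt.2 fun s => (hasDerivAt_ph n s).continuousAt
      have h2 : Continuous fun s => ‖ph s n * x n - ph t n * x n‖ ^ 2 := by fun_prop
      simpa [U_apply] using h2.tendsto t
    · rw [Real.norm_of_nonneg (sq_nonneg _)]
      have h3 : ‖(U s x - U t x) n‖ ≤ 2 * ‖x n‖ := by
        have := norm_sub_le (ph s n * x n) (ph t n * x n)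
        simp only [norm_mul, norm_ph, one_mul] at this
        simp only [lp.coeFn_sub, Pi.sub_apply, U_apply]
        linarith
      nlinarith [norm_nonneg ((U s x - U t x) n)]
  simp only [(hasSum_sq _).tsum_eq, tsum_zero] at h1
  simpa using h1.sqrt

theorem continuousOn_U {s : Set ℝ} {τ : ℝ → ℝ} (hτ : Continuous τ) {y : ℝ → HS d}
    (hy : ContinuousOn y s) : ContinuousOn (fun t => U (τ t) (y t)) s := by
  intro t ht
  rw [ContinuousWithinAt, tendsto_iff_norm_sub_tendsto_zero]
  have h1 := tendsto_iff_norm_sub_tendsto_zero.1 (hy t ht)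
  have h2 := tendsto_iff_norm_sub_tendsto_zero.1
    (((continuous_U (y t)).comp hτ).continuousWithinAt (s := s) (x := t))
  refine squeeze_zero (fun _ => norm_nonneg _) (fun r => ?_) (by simpa using h1.add h2)
  have e : U (τ r) (y r) - U (τ t) (y t) = U (τ r) (y r - y t) + (U (τ r) (y t) - U (τ t) (y t)) := by
    rw [U_sub]
    abel
  rw [e]
  exact (norm_add_le _ _).trans (by rw [norm_U])

theorem isSolution_of_curve (hk : d < 2 * k) {m : ℕ} {T : ℝ} {v : ℝ → HS d}
    (hv : ∀ t ∈ Icc 0 T, HasDerivWithinAt v (U (-t) ((-I) • NH hk m (U t (v t)))) (Icc 0 T) t) :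
    IsSolution d (2 * m + 1) k T (fun t => cf k (U t (v t))) where
  mem t _ := mem_cf _
  cont t ht := by
    have h1 := continuousOn_U continuous_id (fun t ht => (hv t ht).continuousWithinAt) t ht
    rw [ContinuousWithinAt, tendsto_iff_norm_sub_tendsto_zero] at h1
    have h2 := h1.pow 2
    simp only [← cf_sub]
    simp only [sob_cf]
    simpa using h2
  eqn t ht n := by
    have h1 : HasDerivWithinAt (fun s => cf k (v s) n)
        (cf k (U (-t) ((-I) • NH hk m (U t (v t)))) n) (Icc 0 T) t :=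
      ((cfL k n).restrictScalars ℝ).hasFDerivAt.comp_hasDerivWithinAt t (hv t ht)
    have h2 := ((hasDerivAt_ph n t).hasDerivWithinAt (s := Icc 0 T)).mul h1
    simp only [cf_U]
    refine ⟨_, h2, ?_⟩
    have e1 : (fun n => ph t n * cf k (v t) n) = coef (J hk (U t (v t))) := by
      funext n
      rw [coef_J, cf_U]
    have e2 : (fun x => (‖series (coef (J hk (U t (v t)))) x‖ : ℂ) ^ (2 * m + 1 - 1)
        * series (coef (J hk (U t (v t)))) x) = series (coef (F m (J hk (U t (v t))))) := by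
      funext x
      rw [Nat.add_sub_cancel]
      exact (ev_F m _ x).symm
    have e3 : cf k (U t (v t)) = coef (J hk (U t (v t))) := funext fun n => (coef_J hk _ n).symm
    rw [e3, e2, fourierCoef_series (summable_norm _), ← J_NH, coef_J, cf_U, cf_smul]
    have e4 := ph_mul_neg t n
    have e5 := Complex.I_sq
    linear_combination (-(ph t n * sqNorm n * cf k (v t) n)
      - ph t n * ph (-t) n * cf k (NH hk m (U t (v t))) n) * e5
      + cf k (NH hk m (U t (v t))) n * e4

theorem local_exists (hk : d < 2 * k) (m : ℕ) (M : ℝ) : ∃ T : ℝ, 0 < T ∧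
    ∀ a : Lat d → ℂ, MemSobolev k a → sobolevSq k a ≤ M →
      ∃ u, IsSolution d (2 * m + 1) k T u ∧ u 0 = a := by
  obtain ⟨L, hL, h1, h2⟩ := NH_bound hk m (R := Real.sqrt M + 1) (by positivity)
  have hT : 0 < 1 / (L + 1) := by positivity
  refine ⟨1 / (L + 1), hT, fun a ha hM => ?_⟩
  have e0 : cf k (mkH a ha) = a := funext fun n => cf_mkH a ha n
  have hx : ‖mkH a ha‖ ≤ Real.sqrt M := by
    apply Real.le_sqrt_of_sq_le
    rw [← sob_cf (k := k), e0]
    exact hM
  have hb : ∀ x ∈ closedBall (mkH a ha) ((1 : ℝ≥0) : ℝ), ∀ t, ‖U t x‖ ≤ Real.sqrt M + 1 := by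
    intro x hx' t
    rw [norm_U]
    have := norm_le_of_mem_closedBall hx'
    simp only [NNReal.coe_one] at this
    linarith
  have hPL : IsPicardLindelof (fun t x => U (-t) ((-I) • NH hk m (U t x)))
      (tmin := 0) (tmax := 1 / (L + 1)) ⟨0, le_rfl, hT.le⟩ (mkH a ha) 1 0 ⟨L, hL⟩ ⟨L, hL⟩ := by
    refine ⟨fun t _ => LipschitzOnWith.of_dist_le_mul fun x hx y hy => ?_, fun x hx => ?_,
      fun t _ x hx => ?_, ?_⟩
    · rw [dist_eq_norm, dist_eq_norm, ← U_sub, norm_U, ← smul_sub, norm_smul, norm_neg, norm_I,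
        one_mul]
      refine (h2 _ _ (hb x hx t) (hb y hy t)).trans (le_of_eq ?_)
      rw [← U_sub, norm_U]
      rfl
    · suffices hc : Continuous fun t => NH hk m (U t x) from
        continuousOn_U continuous_neg (hc.const_smul (-I)).continuousOn
      rw [continuous_iff_continuousAt]
      intro t
      rw [ContinuousAt, tendsto_iff_norm_sub_tendsto_zero]
      have h3 := (tendsto_iff_norm_sub_tendsto_zero.1 ((continuous_U x).tendsto t)).const_mul L
      exact squeeze_zero (fun _ => norm_nonneg _) (fun s => h2 _ _ (hb x hx s) (hb x hx t))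
        (by simpa using h3)
    · rw [norm_U, norm_smul, norm_neg, norm_I, one_mul]
      exact h1 _ (hb x hx t)
    · show L * max (1 / (L + 1) - 0) (0 - 0) ≤ 1 - 0
      rw [sub_zero, sub_zero, sub_zero, max_eq_left hT.le, mul_one_div, div_le_one (by linarith)]
      linarith
  obtain ⟨v, hv0, hv⟩ := picard_in_ball hPL
  refine ⟨_, isSolution_of_curve hk fun t ht => (hv t ht).1, ?_⟩
  funext n
  have : v 0 = mkH a ha := hv0
  rw [cf_U, this, cf_mkH]
  simp [ph]

theorem glue {p : ℕ} {T T' : ℝ} (hT : 0 ≤ T) (hT' : 0 ≤ T') {u v : ℝ → Lat d → ℂ}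
    (hu : IsSolution d p k T u) (hv : IsSolution d p k T' v) (h : v 0 = u T) :
    IsSolution d p k (T + T') (fun t => if t ≤ T then u t else v (t - T)) := by
  have hun : Icc 0 (T + T') = Icc 0 T ∪ Icc T (T + T') :=
    (Icc_union_Icc_eq_Icc hT (by linarith)).symm
  have e1 : ∀ t ∈ Icc 0 T, (if t ≤ T then u t else v (t - T)) = u t := fun t ht => if_pos ht.2
  have e2 : ∀ t ∈ Icc T (T + T'), (if t ≤ T then u t else v (t - T)) = v (t - T) := by
    intro t ht
    split_ifs with h1
    · rw [le_antisymm h1 ht.1, sub_self, h]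
    · rfl
  have m2 : ∀ t ∈ Icc T (T + T'), t - T ∈ Icc 0 T' := fun t ht =>
    ⟨by linarith [ht.1], by linarith [ht.2]⟩
  have d2 : ∀ t ∈ Icc T (T + T'), ∀ n, ∃ w : ℂ,
      HasDerivWithinAt (fun s => (if s ≤ T then u s else v (s - T)) n) w (Icc T (T + T')) t ∧
      I * w - sqNorm n * v (t - T) n = fourierCoef (fun x => (‖series (v (t - T)) x‖ : ℂ) ^ (p - 1)
        * series (v (t - T)) x) n := by
    intro t ht n
    obtain ⟨w, hw, hw'⟩ := hv.eqn _ (m2 t ht) n
    refine ⟨w, ?_, hw'⟩
    have h3 := HasDerivWithinAt.scomp t hw (((hasDerivAt_id t).sub_const T).hasDerivWithinAt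
      (s := Icc T (T + T'))) m2
    rw [one_smul] at h3
    exact h3.congr (fun s hs => by rw [e2 s hs]; rfl) (by rw [e2 t ht]; rfl)
  have d1 : ∀ t ∈ Icc 0 T, ∀ n, ∃ w : ℂ,
      HasDerivWithinAt (fun s => (if s ≤ T then u s else v (s - T)) n) w (Icc 0 T) t ∧
      I * w - sqNorm n * u t n = fourierCoef (fun x => (‖series (u t) x‖ : ℂ) ^ (p - 1)
        * series (u t) x) n := by
    intro t ht n
    obtain ⟨w, hw, hw'⟩ := hu.eqn _ ht n
    exact ⟨w, hw.congr (fun s hs => by rw [e1 s hs]) (by rw [e1 t ht]), hw'⟩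
  refine ⟨fun t ht => ?_, fun t _ => ?_, fun t ht n => ?_⟩
  · rcases le_total t T with h1 | h1
    · rw [e1 t ⟨ht.1, h1⟩]
      exact hu.mem t ⟨ht.1, h1⟩
    · rw [e2 t ⟨h1, ht.2⟩]
      exact hv.mem _ (m2 t ⟨h1, ht.2⟩)
  · rw [hun, nhdsWithin_union, tendsto_sup]
    constructor
    · by_cases h1 : t ∈ Icc 0 T
      · refine (hu.cont t h1).congr' (eventually_nhdsWithin_of_forall fun s hs => ?_)
        simp only [e1 s hs, e1 t h1]
      · rw [notMem_closure_iff_nhdsWithin_eq_bot.1 (by rwa [closure_Icc])]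
        exact tendsto_bot
    · by_cases h1 : t ∈ Icc T (T + T')
      · have h4 : Tendsto (fun s => s - T) (𝓝[Icc T (T + T')] t) (𝓝[Icc 0 T'] (t - T)) :=
          ((continuous_id.sub continuous_const).continuousWithinAt).tendsto_nhdsWithin m2
        refine ((hv.cont _ (m2 t h1)).comp h4).congr'
          (eventually_nhdsWithin_of_forall fun s hs => ?_)
        simp only [Function.comp_def, e2 s hs, e2 t h1]
      · rw [notMem_closure_iff_nhdsWithin_eq_bot.1 (by rwa [closure_Icc])]
        exact tendsto_bot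
  · rw [hun]
    by_cases h1 : t ∈ Icc 0 T
    · obtain ⟨w, hw, hw'⟩ := d1 t h1 n
      by_cases h2 : t ∈ Icc T (T + T')
      · obtain ⟨w₂, hw₂, hw₂'⟩ := d2 t h2 n
        have e3 : v (t - T) = u t := by rw [← e2 t h2, e1 t h1]
        rw [e3, ← hw'] at hw₂'
        have e4 : w₂ = w := mul_left_cancel₀ I_ne_zero (by linear_combination hw₂')
        rw [e4] at hw₂
        exact ⟨w, hw.union hw₂, by rw [e1 t h1]; exact hw'⟩
      · exact ⟨w, hw.union (hasDerivWithinAt_iff_hasFDerivWithinAt.2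
          (HasFDerivWithinAt.of_notMem_closure (by rwa [closure_Icc]))),
          by rw [e1 t h1]; exact hw'⟩
    · have h2 : t ∈ Icc T (T + T') := ((hun ▸ ht : t ∈ Icc 0 T ∪ Icc T (T + T'))).resolve_left h1
      obtain ⟨w, hw, hw'⟩ := d2 t h2 n
      exact ⟨w, (hasDerivWithinAt_iff_hasFDerivWithinAt.2
          (HasFDerivWithinAt.of_notMem_closure (by rwa [closure_Icc]))).union hw,
        by rw [e2 t h2]; exact hw'⟩

end Vale.Agent.P139Z.Hk
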