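import Vale.Agent.P139Z.Persist.Emb

/-! The Sobolev space as a weighted sequence space, and its algebra structure. -/

open Set Filter Topology Complex
open scoped NNReal ENNReal ComplexConjugate

namespace Vale.Agent.P139Z.Hk

open Vale.Agent.P139 Vale.Agent.P139.A Vale.Agent.P139.A.WA

variable {d k : ℕ}

/-- Square summable sequences. -/
abbrev HS (d : ℕ) : Type := lp (fun _ : Lat d => ℂ) 2

/-- The weight. -/
noncomputable def om (k : ℕ) (n : Lat d) : ℝ := Real.sqrt (1 + sqNorm n) ^ k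

theorem one_le_om (n : Lat d) : 1 ≤ om k n := by
  refine one_le_pow₀ (Real.le_sqrt_of_sq_le ?_)
  linarith [sqNorm_nonneg n]

theorem om_pos (n : Lat d) : 0 < om k n := one_pos.trans_le (one_le_om n)

theorem om_sq (n : Lat d) : om k n ^ 2 = (1 + sqNorm n) ^ k := by
  unfold om
  rw [← pow_mul, mul_comm, pow_mul, Real.sq_sqrt (by linarith [sqNorm_nonneg n])]

theorem sqNorm_add_le (a b : Lat d) : sqNorm (a + b) ≤ 2 * sqNorm a + 2 * sqNorm b := by
  unfold sqNorm
  rw [Finset.mul_sum, Finset.mul_sum, ← Finset.sum_add_distrib]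
  refine Finset.sum_le_sum fun j _ => ?_
  simp only [Pi.add_apply, Int.cast_add]
  nlinarith [sq_nonneg ((a j : ℝ) - b j)]

theorem om_add_le_of_le {a b : Lat d} (h : sqNorm b ≤ sqNorm a) : om k (a + b) ≤ 2 ^ k * om k a := by
  unfold om
  rw [← mul_pow]
  gcongr
  refine Real.sqrt_le_iff.2 ⟨by positivity, ?_⟩
  rw [mul_pow, Real.sq_sqrt (by linarith [sqNorm_nonneg a])]
  linarith [sqNorm_add_le a b]

theorem om_le (n j : Lat d) : om k n ≤ 2 ^ k * (om k j + om k (n - j)) := by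
  have h1 := om_pos (k := k) j
  have h2 := om_pos (k := k) (n - j)
  rcases le_total (sqNorm j) (sqNorm (n - j)) with h | h
  · have := om_add_le_of_le (k := k) h
    rw [sub_add_cancel] at this
    refine this.trans ?_
    gcongr
    linarith
  · have := om_add_le_of_le (k := k) h
    rw [add_sub_cancel] at this
    refine this.trans ?_
    gcongr
    linarith

theorem term_eq (a : ℂ) (n : Lat d) : (1 + sqNorm n) ^ k * ‖a‖ ^ 2 = (om k n * ‖a‖) ^ 2 := by
  rw [mul_pow, om_sq]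

/-- The coefficients of an element. -/
noncomputable def cf (k : ℕ) (x : HS d) (n : Lat d) : ℂ := x n / (om k n : ℂ)

theorem om_ne (n : Lat d) : (om k n : ℂ) ≠ 0 := by exact_mod_cast (om_pos n).ne'

theorem om_mul_norm (x : HS d) (n : Lat d) : om k n * ‖cf k x n‖ = ‖x n‖ := by
  have := om_pos (k := k) n
  rw [cf, norm_div, norm_real, Real.norm_of_nonneg this.le]
  field_simp

/-- The element with given coefficients. -/
noncomputable def mkH (a : Lat d → ℂ) (h : MemSobolev k a) : HS d :=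
  ⟨fun n => (om k n : ℂ) * a n, memℓp_gen (by
    refine h.congr fun n => ?_
    rw [term_eq, norm_mul, norm_real, Real.norm_of_nonneg (om_pos n).le]
    simp)⟩

theorem cf_mkH (a : Lat d → ℂ) (h : MemSobolev k a) (n : Lat d) : cf k (mkH a h) n = a n := by
  have := om_ne (k := k) n
  show (om k n : ℂ) * a n / (om k n : ℂ) = a n
  field_simp

theorem hasSum_cf (x : HS d) :
    HasSum (fun n => (1 + sqNorm n) ^ k * ‖cf k x n‖ ^ 2) (‖x‖ ^ 2) := by
  have h := lp.hasSum_norm (p := 2) (by norm_num) x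
  simp only [ENNReal.toReal_ofNat, Real.rpow_ofNat] at h
  simpa only [term_eq, om_mul_norm] using h

theorem mem_cf (x : HS d) : MemSobolev k (cf k x) := (hasSum_cf x).summable

theorem sob_cf (x : HS d) : sobolevSq k (cf k x) = ‖x‖ ^ 2 := (hasSum_cf x).tsum_eq

theorem cf_ext {x y : HS d} (h : ∀ n, cf k x n = cf k y n) : x = y := by
  ext n
  exact (div_left_inj' (om_ne n)).1 (h n)

theorem cf_add (x y : HS d) (n : Lat d) : cf k (x + y) n = cf k x n + cf k y n := by
  simp [cf, add_div]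

theorem cf_sub (x y : HS d) (n : Lat d) : cf k (x - y) n = cf k x n - cf k y n := by
  simp [cf, sub_div]

theorem cf_smul (c : ℂ) (x : HS d) (n : Lat d) : cf k (c • x) n = c * cf k x n := by
  simp [cf, mul_div_assoc]

theorem norm_le_of_sob {x : HS d} {C : ℝ} (hC : 0 ≤ C) (h : sobolevSq k (cf k x) ≤ C ^ 2) :
    ‖x‖ ≤ C := by
  rw [sob_cf] at h
  exact (abs_le_of_sq_le_sq' h hC).2

/-- A coefficient as a continuous linear form. -/
noncomputable def cfL (k : ℕ) (n : Lat d) : HS d →L[ℂ] ℂ :=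
  LinearMap.mkContinuous
    { toFun := fun x => cf k x n
      map_add' := fun x y => cf_add x y n
      map_smul' := fun c x => cf_smul c x n } 1 fun x => by
    have h1 := lp.norm_apply_le_norm (p := 2) (by norm_num) x n
    have h2 := om_mul_norm (k := k) x n
    have h3 := one_le_om (k := k) n
    show ‖cf k x n‖ ≤ 1 * ‖x‖
    nlinarith [norm_nonneg (cf k x n)]

/-- The embedding constant. -/
noncomputable def CE (d k : ℕ) : ℝ := (∑' n : Lat d, ((1 + sqNorm n) ^ k)⁻¹) + 1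

theorem CE_pos : 0 < CE d k := by
  have : 0 ≤ ∑' n : Lat d, ((1 + sqNorm n) ^ k)⁻¹ := tsum_nonneg fun n => by
    have := sqNorm_nonneg n
    positivity
  unfold CE
  linarith

theorem tsum_cf_le (hk : d < 2 * k) (x : HS d) : ∑' n, ‖cf k x n‖ ≤ CE d k * ‖x‖ := by
  by_cases hx : x = 0
  · subst hx
    simp [cf]
  · have h0 := norm_pos_iff.2 hx
    refine (Persist.tsum_norm_le hk (mem_cf x) h0).trans (le_of_eq ?_)
    rw [sob_cf, CE]
    field_simp

/-- The embedding into the Wiener algebra. -/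
noncomputable def J (hk : d < 2 * k) (x : HS d) : WA d 0 :=
  WA.mk (cf k x) (by simpa [W] using Persist.summable_of_memSobolev hk (mem_cf x))

theorem coef_J (hk : d < 2 * k) (x : HS d) (n : Lat d) : coef (J hk x) n = cf k x n :=
  coef_mk _ _ _

theorem J_inj (hk : d < 2 * k) {x y : HS d} (h : J hk x = J hk y) : x = y :=
  cf_ext fun n => by rw [← coef_J hk, h, coef_J]

theorem J_add (hk : d < 2 * k) (x y : HS d) : J hk (x + y) = J hk x + J hk y := by
  ext n
  simp only [coef_add, coef_J, cf_add]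

theorem J_sub (hk : d < 2 * k) (x y : HS d) : J hk (x - y) = J hk x - J hk y := by
  ext n
  simp only [coef_sub, coef_J, cf_sub]

theorem young {α β : Lat d → ℝ} (hα0 : ∀ n, 0 ≤ α n) (hβ0 : ∀ n, 0 ≤ β n) (hα : Summable α)
    (hβ : Summable fun n => β n ^ 2) :
    (∀ n, Summable fun j => α j * β (n - j)) ∧ (Summable fun n => (∑' j, α j * β (n - j)) ^ 2) ∧
      ∑' n, (∑' j, α j * β (n - j)) ^ 2 ≤ (∑' n, α n) ^ 2 * ∑' n, β n ^ 2 := by
  have h0 : Summable fun q : Lat d × Lat d => α q.1 * β q.2 ^ 2 :=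
    hα.mul_of_nonneg hβ hα0 fun _ => sq_nonneg _
  have h1 : Summable fun p : Lat d × Lat d => α p.2 * β (p.1 - p.2) ^ 2 :=
    (shear d).summable_iff.2 h0
  have h2 : ∀ n, ∀ s : Finset (Lat d), ∑ j ∈ s, α j * β (n - j)
      ≤ Real.sqrt ((∑' n, α n) * ∑' j, α j * β (n - j) ^ 2) := by
    intro n s
    apply Real.le_sqrt_of_sq_le
    calc (∑ j ∈ s, α j * β (n - j)) ^ 2 ≤ (∑ j ∈ s, α j) * ∑ j ∈ s, α j * β (n - j) ^ 2 :=
          Finset.sum_sq_le_sum_mul_sum_of_sq_le_mul s (fun j _ => hα0 j)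
            (fun j _ => mul_nonneg (hα0 j) (sq_nonneg _)) (fun j _ => le_of_eq (by ring))
      _ ≤ _ := mul_le_mul (hα.sum_le_tsum s fun j _ => hα0 j)
          ((h1.prod_factor n).sum_le_tsum s fun j _ => mul_nonneg (hα0 j) (sq_nonneg _))
          (Finset.sum_nonneg fun j _ => mul_nonneg (hα0 j) (sq_nonneg _)) (tsum_nonneg hα0)
  have h3 : ∀ n, Summable fun j => α j * β (n - j) := fun n =>
    summable_of_sum_le (fun j => mul_nonneg (hα0 j) (hβ0 _)) (h2 n)
  have h4 : ∀ n, (∑' j, α j * β (n - j)) ^ 2 ≤ (∑' n, α n) * ∑' j, α j * β (n - j) ^ 2 := by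
    intro n
    have h5 := (h3 n).tsum_le_of_sum_le (h2 n)
    have h6 : 0 ≤ ∑' j, α j * β (n - j) := tsum_nonneg fun j => mul_nonneg (hα0 j) (hβ0 _)
    refine (pow_le_pow_left₀ h6 h5 2).trans (le_of_eq (Real.sq_sqrt ?_))
    exact mul_nonneg (tsum_nonneg hα0) (tsum_nonneg fun j => mul_nonneg (hα0 j) (sq_nonneg _))
  have h7 : Summable fun n => (∑' j, α j * β (n - j)) ^ 2 :=
    Summable.of_nonneg_of_le (fun _ => sq_nonneg _) h4 (h1.prod.mul_left _)
  refine ⟨h3, h7, (h7.tsum_le_tsum h4 (h1.prod.mul_left _)).trans (le_of_eq ?_)⟩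
  rw [tsum_mul_left, ← h1.tsum_prod]
  have h8 : ∑' p : Lat d × Lat d, α p.2 * β (p.1 - p.2) ^ 2
      = ∑' q : Lat d × Lat d, α q.1 * β q.2 ^ 2 :=
    (shear d).tsum_eq fun q : Lat d × Lat d => α q.1 * β q.2 ^ 2
  rw [h8, ← hα.tsum_mul_tsum hβ h0]
  ring

theorem half (hk : d < 2 * k) (x y : HS d) :
    (∀ n, Summable fun j => ‖cf k x j‖ * ‖y (n - j)‖) ∧
      (Summable fun n => (∑' j, ‖cf k x j‖ * ‖y (n - j)‖) ^ 2) ∧
      ∑' n, (∑' j, ‖cf k x j‖ * ‖y (n - j)‖) ^ 2 ≤ (CE d k * ‖x‖ * ‖y‖) ^ 2 := by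
  have hy := hasSum_cf (k := k) y
  simp only [term_eq, om_mul_norm] at hy
  obtain ⟨h1, h2, h3⟩ := young (α := fun j => ‖cf k x j‖) (β := fun j => ‖y j‖)
    (fun _ => norm_nonneg _) (fun _ => norm_nonneg _)
    (Persist.summable_of_memSobolev hk (mem_cf x)) hy.summable
  refine ⟨h1, h2, h3.trans ?_⟩
  rw [hy.tsum_eq, mul_pow]
  gcongr
  exact tsum_cf_le hk x

theorem mul_term (hk : d < 2 * k) (x y : HS d) (n : Lat d) :
    (1 + sqNorm n) ^ k * ‖coef (J hk x * J hk y) n‖ ^ 2 ≤ 2 * (2 ^ k) ^ 2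
      * ((∑' j, ‖cf k x j‖ * ‖y (n - j)‖) ^ 2 + (∑' j, ‖cf k y j‖ * ‖x (n - j)‖) ^ 2) := by
  have h1 := (half hk x y).1 n
  have h2 := (half hk y x).1 n
  have h3 : Summable fun j => ‖cf k y (n - j)‖ * ‖x j‖ := by
    have := (Equiv.subLeft n).summable_iff.2 h2
    simpa [Function.comp_def] using this
  have h4 : ∑' j, ‖cf k y (n - j)‖ * ‖x j‖ = ∑' j, ‖cf k y j‖ * ‖x (n - j)‖ := by
    have := (Equiv.subLeft n).tsum_eq fun j => ‖cf k y j‖ * ‖x (n - j)‖
    simpa using this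
  have h5 : om k n * ‖coef (J hk x * J hk y) n‖
      ≤ 2 ^ k * ((∑' j, ‖cf k x j‖ * ‖y (n - j)‖) + ∑' j, ‖cf k y j‖ * ‖x (n - j)‖) := by
    rw [coef_mul, ← h4, ← h1.tsum_add h3, ← tsum_mul_left]
    have h6 := summable_conv_norm (J hk x) (J hk y) n
    calc om k n * ‖∑' j, coef (J hk x) j * coef (J hk y) (n - j)‖
        ≤ om k n * ∑' j, ‖coef (J hk x) j * coef (J hk y) (n - j)‖ :=
          mul_le_mul_of_nonneg_left (norm_tsum_le_tsum_norm h6) (om_pos n).le
      _ = ∑' j, om k n * ‖coef (J hk x) j * coef (J hk y) (n - j)‖ := tsum_mul_left.symm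
      _ ≤ _ := by
          refine (h6.mul_left _).tsum_le_tsum (fun j => ?_) ((h1.add h3).mul_left _)
          rw [norm_mul, coef_J, coef_J, ← om_mul_norm (k := k) y, ← om_mul_norm (k := k) x]
          have h7 := mul_le_mul_of_nonneg_right (om_le (k := k) n j)
            (mul_nonneg (norm_nonneg (cf k x j)) (norm_nonneg (cf k y (n - j))))
          linarith
  rw [term_eq]
  have h8 : 0 ≤ om k n * ‖coef (J hk x * J hk y) n‖ := mul_nonneg (om_pos n).le (norm_nonneg _)
  refine (pow_le_pow_left₀ h8 h5 2).trans ?_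
  rw [mul_pow]
  generalize (∑' j, ‖cf k x j‖ * ‖y (n - j)‖) = A
  generalize (∑' j, ‖cf k y j‖ * ‖x (n - j)‖) = B
  nlinarith [mul_nonneg (sq_nonneg ((2 : ℝ) ^ k)) (sq_nonneg (A - B))]

theorem mem_mul (hk : d < 2 * k) (x y : HS d) : MemSobolev k (coef (J hk x * J hk y)) :=
  Summable.of_nonneg_of_le (fun n => by rw [term_eq]; positivity) (mul_term hk x y)
    (((half hk x y).2.1.add (half hk y x).2.1).mul_left _)

/-- The product. -/
noncomputable def mulH (hk : d < 2 * k) (x y : HS d) : HS d := mkH _ (mem_mul hk x y)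

theorem J_mulH (hk : d < 2 * k) (x y : HS d) : J hk (mulH hk x y) = J hk x * J hk y := by
  ext n
  rw [coef_J, mulH, cf_mkH]

/-- The algebra constant. -/
noncomputable def CM (d k : ℕ) : ℝ := 2 * 2 ^ k * CE d k

theorem CM_pos : 0 < CM d k := by
  have := CE_pos (d := d) (k := k)
  unfold CM
  positivity

theorem norm_mulH (hk : d < 2 * k) (x y : HS d) : ‖mulH hk x y‖ ≤ CM d k * ‖x‖ * ‖y‖ := by
  have hC := CM_pos (d := d) (k := k)
  refine norm_le_of_sob (k := k) (by positivity) ?_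
  have e : cf k (mulH hk x y) = coef (J hk x * J hk y) := funext fun n => cf_mkH _ _ n
  rw [e]
  refine ((mem_mul hk x y).tsum_le_tsum (mul_term hk x y)
    (((half hk x y).2.1.add (half hk y x).2.1).mul_left _)).trans ?_
  rw [tsum_mul_left, (half hk x y).2.1.tsum_add (half hk y x).2.1]
  calc _ ≤ 2 * ((2 : ℝ) ^ k) ^ 2 * ((CE d k * ‖x‖ * ‖y‖) ^ 2 + (CE d k * ‖y‖ * ‖x‖) ^ 2) := by
        gcongr
        · exact (half hk x y).2.2
        · exact (half hk y x).2.2
    _ = _ := by unfold CM; ring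

theorem hasSum_st (hk : d < 2 * k) (x : HS d) :
    HasSum (fun n => (1 + sqNorm n) ^ k * ‖coef (conjL (J hk x)) n‖ ^ 2) (‖x‖ ^ 2) := by
  have h := (Equiv.neg (Lat d)).hasSum_iff.2 (hasSum_cf (k := k) x)
  simpa [Function.comp_def, sqNorm_neg, coef_conjL, coef_J] using h

/-- The conjugation. -/
noncomputable def stH (hk : d < 2 * k) (x : HS d) : HS d :=
  mkH (k := k) (coef (conjL (J hk x))) (hasSum_st hk x).summable

theorem J_stH (hk : d < 2 * k) (x : HS d) : J hk (stH hk x) = conjL (J hk x) := by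
  ext n
  rw [coef_J]
  exact cf_mkH _ _ n

theorem norm_stH (hk : d < 2 * k) (x : HS d) : ‖stH hk x‖ ≤ ‖x‖ := by
  refine norm_le_of_sob (k := k) (norm_nonneg _) (le_of_eq ?_)
  have e : cf k (stH hk x) = coef (conjL (J hk x)) := funext fun n => cf_mkH _ _ n
  rw [e]
  exact (hasSum_st hk x).tsum_eq

/-- The nonlinearity. -/
noncomputable def NH (hk : d < 2 * k) : ℕ → HS d → HS d
  | 0, x => x
  | m + 1, x => mulH hk x (mulH hk (stH hk x) (NH hk m x))

theorem J_NH (hk : d < 2 * k) (m : ℕ) (x : HS d) : J hk (NH hk m x) = F m (J hk x) := by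
  induction m with
  | zero => simp [NH, F]
  | succ m ih =>
    rw [NH, J_mulH, J_mulH, J_stH, ih]
    unfold F
    ring

theorem NH_bound (hk : d < 2 * k) (m : ℕ) {R : ℝ} (hR : 0 ≤ R) : ∃ L : ℝ, 0 ≤ L ∧
    (∀ x : HS d, ‖x‖ ≤ R → ‖NH hk m x‖ ≤ L) ∧
      ∀ x y : HS d, ‖x‖ ≤ R → ‖y‖ ≤ R → ‖NH hk m x - NH hk m y‖ ≤ L * ‖x - y‖ := by
  have hC := CM_pos (d := d) (k := k)
  induction m with
  | zero =>
    refine ⟨R + 1, by linarith, fun x hx => by simp only [NH]; linarith, fun x y _ _ => ?_⟩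
    simp only [NH]
    nlinarith [norm_nonneg (x - y)]
  | succ m ih =>
    obtain ⟨L, hL, h1, h2⟩ := ih
    have b1 : ∀ (a b c : HS d) (A B C : ℝ), ‖a‖ ≤ A → ‖b‖ ≤ B → ‖c‖ ≤ C →
        ‖mulH hk a (mulH hk (stH hk b) c)‖ ≤ CM d k * A * (CM d k * B * C) := by
      intro a b c A B C ha hb hc
      have hA := (norm_nonneg _).trans ha
      have hB := (norm_nonneg _).trans hb
      refine (norm_mulH hk _ _).trans ?_
      gcongr
      refine (norm_mulH hk _ _).trans ?_
      gcongr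
      exact (norm_stH hk b).trans hb
    refine ⟨CM d k ^ 2 * L * (R ^ 2 + 2 * R), by positivity, fun x hx => ?_, fun x y hx hy => ?_⟩
    · refine (b1 x x _ R R L hx hx (h1 x hx)).trans ?_
      have : 0 ≤ CM d k ^ 2 * L * (2 * R) := by positivity
      nlinarith
    · have e : NH hk (m + 1) x - NH hk (m + 1) y
          = mulH hk (x - y) (mulH hk (stH hk x) (NH hk m x))
            + mulH hk y (mulH hk (stH hk (x - y)) (NH hk m x))
            + mulH hk y (mulH hk (stH hk y) (NH hk m x - NH hk m y)) := by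
        apply J_inj hk
        simp only [NH, J_add, J_sub, J_mulH, J_stH, map_sub]
        ring
      rw [e]
      refine (norm_add₃_le).trans ?_
      have t1 := b1 (x - y) x _ _ R L le_rfl hx (h1 x hx)
      have t2 := b1 y (x - y) _ R _ L hy le_rfl (h1 x hx)
      have t3 := b1 y y _ R R _ hy hy (h2 x y hx hy)
      linarith

end Vale.Agent.P139Z.Hk
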